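import Vale.Agent.P275TU.Top
import Vale.Agent.P275TB.Pbb
import Vale.Agent.P275MC.Ex
import Vale.Agent.P275S.Tor

/-!
# P275, block UNIT: the winding class of an algebraic unit has weight two
-/

open scoped Manifold ContDiff Topology Real
open Set Function TopologicalSpace Topology
open Vale.Agent.P272.K (Cm)
open Vale.Agent.P281Z Vale.Agent.P275RG Vale.Agent.P275MC Vale.Agent.P275B Vale.Agent.P275FM
open Vale.Agent.P275XI Vale.Agent.P275TB Vale.Agent.P275LO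
open Vale.Agent.P281Z.Hg (Smo)
open Vale.Agent.P275AR (Act)
open P275S (H Hd Nz wind wind_pb wind_mem wind_congr c1_triv c1_tor kap_ne mul_mem_Hd)
open P275CC (LB)

noncomputable section

set_option backward.isDefEq.respectTransparency false

namespace Vale.Agent.P275TU

/-- a class of degree two which vanishes outside of a divisor -/
theorem ex_gys {m k : ℕ} {T : Mn m} {Z : Mn k} {i : Z.X → T.X} {hi : Smo k m i}
    (he : IsClosedEmbedding i) (e : m = k + 1) (h : Act univ univ (P275MC.pb hi))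
    {α : H ℂ (TopCat.of T.X)} (hα : α ∈ Hd ℂ (TopCat.of T.X) 2)
    (h0 : P275S.pb (P275S.sub (X := TopCat.of T.X) (range i)ᶜ) α = 0) :
    ∃ β ∈ Hd ℂ (TopCat.of Z.X) 0, α = gys h β := by
  let O : Opens T.X := ⟨(range i)ᶜ, he.isClosed_range.isOpen_compl⟩
  obtain ⟨β, rfl⟩ := (gex_M hi he (oe_val O) Subtype.range_coe (ori_val O) h α).1 h0
  exact ⟨_, pj_mem 0 β, (pj_of_mem hα).symm.trans
    (pj_map (gys h) 2 (fun n a ha => gys_mem h ha (by omega)) 0 β)⟩

theorem nice_compl {m : ℕ} {T : Mn m} {S : Set T.X} (h : IsClosed S) :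
    P275S.Nice (TopCat.of ↥Sᶜ) := nice (d := m) (M := (⟨Sᶜ, h.isOpen_compl⟩ : Opens T.X))

/-- the line bundle of the torus trick is trivial -/
theorem wind_sec {X : TopCat.{0}} [P275S.Nice X] {f g : X → ℂ} (hf : Nz f) (hg : Nz g) {ι : Type}
    {U : ι → Set X} (op : ∀ i, IsOpen (U i)) (cov : ∀ x, ∃ i, x ∈ U i) {l v : ι → X → ℂ}
    (hl : ∀ i, ContinuousOn (l i) (U i)) (he : ∀ i, ∀ x ∈ U i, Complex.exp (l i x) = g x)
    (hv : ∀ i, ContinuousOn (v i) (U i)) (h0 : ∀ i, ∀ x ∈ U i, v i x ≠ 0)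
    (hk : ∀ i j, ∀ x ∈ U i, x ∈ U j → ∃ k : ℤ, l i x - l j x = k * (2 * π * Complex.I) ∧
      v i x = f x ^ k * v j x) : wind hg * wind hf = 0 := by
  let Λ : LB X :=
    { ι := ι, U := U, op := op, cov := cov, g := fun i j x => v i x / v j x
      ct := fun i j => ((hv i).mono inter_subset_left).div ((hv j).mono inter_subset_right)
        fun x k => h0 j x k.2
      id := fun i x k => div_self (h0 i x k)
      cc := fun _ j _ x _ k _ => div_mul_div_cancel₀ (h0 j x k) }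
  have e := c1_tor hf hg Λ l hl he fun i j x a a' => let ⟨k, e, e'⟩ := hk i j x a a'
    ⟨k, e.trans (mul_comm _ _), (div_eq_iff (h0 j x a')).2 e'⟩
  rw [c1_triv (L := Λ) ⟨v, ⟨fun i => (hv i).mono inter_subset_left,
    fun i j x _ a _ => (div_mul_cancel₀ _ (h0 j x a)).symm⟩, h0⟩] at e
  rw [← inv_smul_smul₀ kap_ne (_ * _), ← e, smul_zero]

theorem pb_cmp {X Y Z : TopCat.{0}} (f : X ⟶ Y) (g : Y ⟶ Z) (k : X ⟶ Z) (e : ∀ x, g (f x) = k x) :
    (P275S.pb (k := ℂ) f).comp (P275S.pb g) = P275S.pb k :=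
  AlgHom.ext fun a => (P275S.pb_comp f g a).trans (congrArg (P275S.pb · a) (TopCat.ext e))

/-- the affine line -/
abbrev aff : Vr 1 := { X := Cm 1, cp := cA 1 }

theorem reg_zpow {n : ℕ} {M : Vr n} {t : M.X → ℂ} (h : Reg M.cp t) (h0 : ∀ x, t x ≠ 0) :
    ∀ k : ℤ, Reg M.cp fun x => t x ^ k
  | (k : ℕ) => by simpa only [zpow_natCast] using h.pow k
  | Int.negSucc k => by
    simpa only [zpow_negSucc] using (h.pow _).inv fun x => pow_ne_zero (k + 1) (h0 x)

variable (W : WF) {b b' d d' D D' : ℕ} {B : Mn b} {B' : Mn b'} {c : Cv B} {c' : Cv B'} {M : Vr d}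
  {M' : Vr d'} {F : Fl c M D}

theorem hm_uniq {β r} {F' : Fl c' M' D'} {f t t'} (h : Hm β r F' F f t) (h' : Hm β r F' F f t')
    (x : F'.T.X) : t x = t' x :=
  let ⟨i, hi⟩ := c'.cov (F'.q x)
  F.tv.ext' (i := r i) ((h.qt x).symm ▸ h.sub i _ hi : F.q (t x) ∈ _)
    ((h.qt x).trans (h'.qt x).symm) ((h.φt i x hi).trans (h'.φt i x hi).symm)

theorem cemb_zero (X : Type) [TopologicalSpace X] :
    IsClosedEmbedding fun x : X => (x, (0 : Cm 1)) :=
  ⟨isEmbedding_prodMkLeft 0, by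
    rw [show range (fun x : X => (x, (0 : Cm 1))) = Prod.snd ⁻¹' {0} by ext; simp [Prod.ext_iff, eq_comm]]
    exact isClosed_singleton.preimage continuous_snd⟩

theorem hm_zero : Hm0 F (F.prodV aff) (fun _ m => (m, (0 : Cm 1))) fun x => (x, (0 : Cm 1)) :=
  ⟨holM_id, fun _ _ h => h, fun _ => (Alg.id _).pair (.const _ _ _), fun _ => rfl, fun _ _ _ => rfl⟩

/-- the pull-back to the product with the affine line -/
theorem pba (g : Grd (wH W (F.prodV aff)) (wH W F) (-2) (P275S.pb (tm hm_zero.smo)).toLinearMap) :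
    Grd (wH W F) (wH W (F.prodV aff)) 2 (P275S.pb (tm (F.hm_fst aff).smo)).toLinearMap := by
  have := nice (d := D) (M := F.T.X)
  have := nice (d := D + 1) (M := (F.prodV aff).T.X)
  refine Grd.of_inj (gr_wH W _) (gr_wH W F) g (P275S.pb_bijective_of_homotopy (tm hm_zero.smo)
    (tm (F.hm_fst aff).smo) (.refl _) ⟨⟨⟨fun z => (z.2.1, ((z.1 : ℝ) : ℂ) • (z.2.2 : Cm 1)), ?_⟩,
      fun z => Prod.ext rfl ?_, fun z => Prod.ext rfl ?_⟩⟩).1
    (grd_congr (gr_wH W F).grd_id rfl fun x => (P275S.pb_comp _ _ x).trans (P275S.pb_id x))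
  · exact (continuous_fst.comp continuous_snd).prodMk
      ((Complex.continuous_ofReal.comp (continuous_subtype_val.comp continuous_fst)).smul
        (continuous_snd.comp continuous_snd))
  · exact zero_smul ℂ _
  · exact one_smul ℂ _

variable {f₀ : M.X → ℂ} {f : F.T.X → ℂ}

theorem inv_tr (hi : F.Inv (fun _ => f₀) f) {i j : c.ι} {x : B.X} (h : x ∈ c.V i) (h' : x ∈ c.V j)
    (m : M.X) : f₀ (F.tr i j m) = f₀ m := by
  have e := F.qψ j (x, m) h'
  have h1 := hi i (F.ψ j (x, m)) (e.symm ▸ h)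
  rw [hi j _ (e.symm ▸ h'), F.φtr i j _ (e.symm ▸ h) (e.symm ▸ h'), F.φψ j (x, m) h'] at h1
  exact h1.symm

theorem unit_of (conn : ∀ i, IsPreconnected (c.V i)) (hf : Reg M.cp f₀)
    (hi : F.Inv (fun _ => f₀) f) (h0 : ∀ m, f₀ m ≠ 0) (h : Nz (X := TopCat.of F.T.X) f)
    (A : Grd (wH W F) (wH W (F.prodV aff)) 2 (P275S.pb (tm (F.hm_fst aff).smo)).toLinearMap) :
    MG (wH W F) (-2) (wind h) := by
  have := ChartedSpace.locallyConnectedSpace (Cm 1) tor.X
  obtain ⟨G⟩ := ex_lg (N := tor.X) (g := fun z => (z.1 : ℂ))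
    (continuous_subtype_val.comp continuous_fst) fun z => z.1.coe_ne_zero
  have := G.fin
  let c₂ : Cv (B.prod tor) := ⟨c.ι × G.ι, fun a => c.V a.1 ×ˢ G.U a.2,
    fun a => (c.opn _).prod (G.opn _),
    fun x => let ⟨i, h⟩ := c.cov x.1; let ⟨j, k⟩ := G.cov x.2; ⟨(i, j), h, k⟩⟩
  have conn₂ : ∀ a, IsPreconnected (c₂.V a) := fun a => (conn _).prod (G.con _)
  obtain ⟨L, hL⟩ := flex _ _ _ c₂ (M.prod aff)
    (fun a a' z => (F.tr a.1 a'.1 z.1, f₀ z.1 ^ G.k a.2 a'.2 • (z.2 : Cm 1)))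
    ⟨fun a a' ⟨x, k⟩ => ((F.alg _ _ ⟨x.1, k.1.1, k.2.1⟩).comp .fst).pair (alg_iff_reg.2 fun l =>
      ((reg_zpow hf h0 _).comp .fst).mul ((reg_crd l).comp .snd)),
    fun a ⟨x, k⟩ z => Prod.ext (F.tv.t_self k.1 _) (by rw [G.k_self k.2, zpow_zero, one_smul]),
    fun a a' a'' ⟨x, k⟩ z => Prod.ext (F.tv.t_t k.1.1.1 k.1.2.1 k.2.1 _) (by
      simp only [inv_tr hi k.1.2.1 k.2.1, smul_smul, ← zpow_add₀ (h0 _),
        G.k_add k.1.1.2 k.1.2.2 k.2.2])⟩
  let Y := F.pb (c' := c₂) continuous_fst Prod.fst fun _ _ k => k.1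
  have ht : Hm _ _ Y F _ _ := F.hm_pb (c' := c₂) hol_fst Prod.fst fun _ _ k => k.1
  obtain ⟨p, hp⟩ := L.ex_hm F (r := Prod.fst) (f := fun _ => Prod.fst) hol_fst (fun _ _ k => k.1)
    (fun _ => .fst) fun _ _ _ _ => by rw [hL]
  obtain ⟨s, hs⟩ := Y.ex_hm L (r := id) (f := fun _ m => (m, (0 : Cm 1))) holM_id (fun _ _ k => k)
    (fun _ => (Alg.id _).pair (.const _ _ _)) fun _ _ _ _ => by
      rw [hL]
      exact Prod.ext rfl (smul_zero _).symm
  let e₀ : tor.X := (Circle.exp π, Circle.exp π)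
  obtain ⟨a₀, ha₀⟩ := G.cov e₀
  obtain ⟨i, hj⟩ := (F.prodV aff).ex_hm L (β := fun x => (x, e₀)) (r := fun a => (a, a₀))
    (f := fun _ z => z) (holM_mk holM_id (holM_const _)) (fun _ _ k => ⟨k, ha₀⟩) (fun _ => .id _)
    fun _ _ _ z => by
      rw [hL]
      exact Prod.ext rfl (by simp only [G.k_self ha₀, zpow_zero, one_smul]; rfl)
  have es := hs.cemb .id fun _ => cemb_zero _
  have eb : IsClosedEmbedding fun x : B.X => (x, e₀) := ⟨isEmbedding_prodMkLeft _, by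
    rw [show range (fun x : B.X => (x, e₀)) = Prod.snd ⁻¹' {e₀} by ext; simp [Prod.ext_iff, eq_comm]]
    exact isClosed_singleton.preimage continuous_snd⟩
  have ei := hj.cemb eb fun _ => .id
  have as := act_univ hs.smo es.isProperMap
  have ai := act_univ hj.smo ei.isProperMap
  have n₁ : Nz (X := TopCat.of (B.prod tor).X) fun x => (x.2.1 : ℂ) :=
    ⟨continuous_subtype_val.comp (continuous_fst.comp continuous_snd), fun x => x.2.1.coe_ne_zero⟩
  have n₂ : Nz (X := TopCat.of (B.prod tor).X) fun x => (x.2.2 : ℂ) :=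
    ⟨continuous_subtype_val.comp (continuous_snd.comp continuous_snd), fun x => x.2.2.coe_ne_zero⟩
  have m₁ := n₁.pb (tm (smo_of_hol L.hq))
  have m₂ := n₂.pb (tm (smo_of_hol L.hq))
  have m₀ := h.pb (tm hp.smo)
  have := nice (d := D) (M := F.T.X)
  have := nice (d := b + 1 + (d + 1)) (M := L.T.X)
  obtain ⟨m, hm, e₂⟩ := ex_gys es (by omega) as
    (mul_mem_Hd one_add_one_eq_two (wind_mem m₁) (wind_mem m₀)) (by
      have := nice_compl es.isClosed_range
      have q := L.hq.cont.comp (continuous_subtype_val (p := (· ∈ (range s)ᶜ)))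
      rw [map_mul, ← wind_pb, ← wind_pb]
      refine wind_sec _ _ (fun a => (c₂.opn a).preimage q) (fun x => c₂.cov _)
        (l := fun a x => G.l a.2 (L.q x.1).2) (v := fun a x => (L.φ a x.1).2 0)
        (fun a => (G.ct a.2).comp (continuous_snd.comp q).continuousOn fun _ k => k.2)
        (fun a x k => G.exp a.2 _ k.2) (fun a x k => ?_)
        (fun a x k e => x.2 (hs.mem_range.2 ⟨a, _, k, rfl, (L.φ a x.1).1, Prod.ext rfl ?_⟩))
        fun a a' x k k' => ⟨_, G.sub _ _ _ k.2 k'.2, ?_⟩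
      · exact ((continuous_apply 0).continuousAt.comp (continuousAt_snd.comp
          ((L.hφ a x.1 k).cont.comp continuousAt_subtype_val))).continuousWithinAt
      · exact funext fun l => Subsingleton.elim 0 l ▸ e.symm
      · change _ = f (p x.1) ^ _ * _
        rw [L.φtr a a' x.1 k k', hL, hi a'.1 _ ((hp.qt x.1).symm ▸ k'.1), hp.φt a' x.1 k']
        rfl)
  obtain ⟨l, hl, e₃⟩ := ex_gys ei (by have := F.dim; omega) ai
    (mul_mem_Hd one_add_one_eq_two (wind_mem m₂) (wind_mem m₁)) (by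
      have := nice_compl ei.isClosed_range
      rw [map_mul, ← wind_pb, ← wind_pb]
      refine wind_wind _ _ fun x => ?_
      refine (not_and_or.1 fun k => x.2 ?_).imp slit_of_ne slit_of_ne
      obtain ⟨a, ha⟩ := c.cov (L.q x.1).1
      exact hj.mem_range.2 ⟨a, _, ha, Prod.ext rfl (Prod.ext k.2.symm k.1.symm), _, rfl⟩)
  have k₁ : ∀ x, p (s x) = x.1.2 := hm_uniq (hp.comp hs) ht
  have k₂ : ∀ x, p (i x) = x.1 := hm_uniq (hp.comp hj) (F.hm_fst aff)
  have q := F.hq.cont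
  have j₁ : ∀ x, wind m₂ * (wind m₁ * P275S.pb (tm hp.smo) x) = 0 → x = 0 := fun x =>
    tor_inj m₂ m₁ ⟨fun z => s ⟨((F.q z.2.2, (z.2.1, z.1)), z.2.2), rfl⟩,
      hs.hol.cont.comp (Continuous.subtype_mk (by fun_prop) _)⟩
      (fun z => k₁ _) (fun z => congrArg (fun y => (y.2.2 : ℂ)) (hs.qt _))
      fun z => congrArg (fun y => (y.2.1 : ℂ)) (hs.qt _)
  have j₂ := (wind_pb (tm hs.smo) m₂).symm.trans ((wind_congr (m₂.pb (tm hs.smo))
    (n₂.pb (tm (smo_of_hol Y.hq))) fun x => congrArg (fun y => (y.2.2 : ℂ)) (hs.qt x)).trans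
      (wind_pb (tm (smo_of_hol Y.hq)) n₂))
  have g₅ := mg_base W Y (smo_of_hol Y.hq) (wind n₂)
  have g₆ := pbb W ht
  rw [← j₂] at g₅
  rw [← pb_cmp (tm hs.smo) (tm hp.smo) (tm ht.smo) k₁] at g₆
  rw [← pb_cmp (tm hj.smo) (tm hp.smo) (tm (F.hm_fst aff).smo) k₂] at A
  rw [wind_pb _ h] at e₂
  have c₁ := ce_even (b + 1 + (d + 1)) (gys_mem as hm (n := 2) (by omega)) even_two
  have c₂ := ce_even (b + 1 + (d + 1)) (gys_mem ai hl (n := 2) (by have := F.dim; omega)) even_two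
  have g₁ := grd_gys W hs isProperMap_id (fun _ => (cemb_zero _).isProperMap) as
  have g₂ := grd_gys W hj eb.isProperMap (fun _ => isProperMap_id) ai
  exact alg_unit (gys_mul as) (gys_mul ai) e₂ e₃ (ce_even (b + 1 + d) hm Even.zero)
    (ce_even (D + 1) hl Even.zero) c₁ c₂ j₁ (gr_wH W F) (gr_wH W Y) (gr_wH W L) (gr_wH W _) g₁ g₂ (mg_zero W Y conn₂ hm)
    (mg_zero W _ conn hl) g₅ g₆ A

/-- **UNIT**, from the restriction to a principal divisor -/
theorem unit (conn : ∀ i, IsPreconnected (c.V i)) (hf : Reg M.cp f₀)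
    (hi : F.Inv (fun _ => f₀) f) (h0 : ∀ m, f₀ m ≠ 0) (h : Nz (X := TopCat.of F.T.X) f)
    (gy : ∀ {e i g₀ g} (k : Hm0 F (F.prodV aff) (fun _ => e) i), Reg (M.prod aff).cp g₀ →
      (F.prodV aff).Inv (fun _ => g₀) g → Emb d (d + 1) e {m | g₀ m = 0} → IsClosedEmbedding e →
      (∀ m, g₀ m = 0 → Sbm (d + 1) 1 (fun m (_ : Fin 1) => g₀ m) m) →
      Grd (wH W (F.prodV aff)) (wH W F) (-2) (P275S.pb (tm k.smo)).toLinearMap) :
    MG (wH W F) (-2) (wind h) :=
  have e : ∀ v : Cm 1, (fun _ => v 0) = v := fun v =>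
    funext fun _ => congrArg v (Subsingleton.elim _ _)
  unit_of W conn hf hi h0 h (pba W (gy (g₀ := fun m => m.2 0) (g := fun x => x.2 0) hm_zero
    ((reg_crd 0).comp .snd) (fun _ _ _ => rfl)
    ⟨holM_mk holM_id (holM_const _), (cemb_zero _).injective,
      fun x => imm_mk_left (imm_id x) (holM_id.at x) ((holM_const _).at x), Set.ext fun m =>
        ⟨fun ⟨_, k⟩ => k ▸ rfl, fun k => ⟨m.1, Prod.ext rfl ((e m.2).symm.trans
          (funext fun _ => k)).symm⟩⟩⟩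
    (cemb_zero _) fun m _ => (funext fun m : M.X × Cm 1 => e m.2).symm ▸ sbm_snd m))

end Vale.Agent.P275TU
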