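import Vale.Agent.P275MK.Fl
import Vale.Agent.P275LO.LH
import Vale.Agent.P275S.PN
import Vale.Agent.P275XI.Alg

/-!
# P275, block UNIT: the torus, logarithms on a cover, the algebra
-/

open scoped Manifold ContDiff Topology Real
open Set Filter Function CategoryTheory
open Vale.Agent.P272.K (Cm)
open Vale.Agent.P275MK Vale.Agent.P275B Vale.Agent.P275FM Vale.Agent.P275XI Vale.Agent.P275LO
open P275S

noncomputable section

set_option backward.isDefEq.respectTransparency false

namespace Vale.Agent.P275TU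

/-- the universal cover of the torus -/
def ex (z : ℂ) : Circle × Circle := (Circle.exp z.re, Circle.exp z.im)

theorem ex_add (z w : ℂ) : ex (z + w) = ex z * ex w :=
  Prod.ext (Circle.exp_add _ _) (Circle.exp_add _ _)

theorem ex_lh : IsLocalHomeomorph ex :=
  IsLocalHomeomorph.comp (g := Prod.map Circle.exp Circle.exp) (fun x =>
    let ⟨e, h, k⟩ := isLocalHomeomorph_circleExp x.1
    let ⟨e', h', k'⟩ := isLocalHomeomorph_circleExp x.2
    ⟨e.prod e', ⟨h, h'⟩, by rw [k]; nth_rw 2 [← k]; rw [k']; rfl⟩)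
    Complex.equivRealProdCLM.toHomeomorph.isLocalHomeomorph

theorem ex_cov (x : Circle × Circle) : ∃ z, x ∈ (ex_lh.localInverseAt z).source := by
  obtain ⟨a, ha⟩ := Circle.exp_surjective x.1
  obtain ⟨b, hb⟩ := Circle.exp_surjective x.2
  exact ⟨⟨a, b⟩, (show ex ⟨a, b⟩ = x from Prod.ext ha hb) ▸
    ex_lh.apply_self_mem_localInverseAt_source⟩

theorem ex_an (i j : ℂ) (x : Circle × Circle) (hi : x ∈ (ex_lh.localInverseAt i).source)
    (hj : x ∈ (ex_lh.localInverseAt j).source) : AnalyticAt ℂ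
      (fun z => ex_lh.localInverseAt j ((ex_lh.localInverseAt i).symm z))
      (ex_lh.localInverseAt i x) := by
  set e := ex_lh.localInverseAt j
  set a := ex_lh.localInverseAt i x
  have h1 : ex a = x := ex_lh.apply_localInverseAt_of_mem hi
  have h2 : ex (e x) = x := ex_lh.apply_localInverseAt_of_mem hj
  have h3 : ex (e x - a) = 1 := mul_right_cancel (b := ex a) (by
    rw [← ex_add, sub_add_cancel, h1, h2, one_mul])
  refine (analyticAt_id.add (analyticAt_const (v := e x - a))).congr ?_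
  have h4 : ContinuousAt (fun z => z + (e x - a)) a := by fun_prop
  filter_upwards [h4.eventually (e.open_target.eventually_mem (x := a + (e x - a))
    (by rw [add_sub_cancel]; exact e.map_source hj))] with z hz
  have := e.right_inv hz
  rw [ex_lh.localInverseAt_symm, ex_add, h3, mul_one] at this
  rw [ex_lh.localInverseAt_symm, this]
  rfl

/-- the torus as a complex curve -/
def tor : Mn 1 :=
  { X := Circle × Circle, ch := (Gl.ofC _ ex_cov ex_an).cs, mf := (Gl.ofC _ ex_cov ex_an).mf }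

instance : CompactSpace tor.X := inferInstanceAs (CompactSpace (Circle × Circle))

/-- logarithms of `g` on a finite cover by connected sets, with constant differences -/
structure Lg {N : Type} [TopologicalSpace N] (g : N → ℂ) : Type 1 where
  ι : Type
  [fin : Fintype ι]
  U : ι → Set N
  l : ι → N → ℂ
  k : ι → ι → ℤ
  opn : ∀ i, IsOpen (U i)
  con : ∀ i, IsPreconnected (U i)
  cov : ∀ x, ∃ i, x ∈ U i
  ct : ∀ i, ContinuousOn (l i) (U i)
  exp : ∀ i, ∀ x ∈ U i, Complex.exp (l i x) = g x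
  sub : ∀ i j, ∀ x ∈ U i, x ∈ U j → l i x - l j x = k i j * (2 * π * Complex.I)

theorem ex_lg {N : Type} [TopologicalSpace N] [CompactSpace N] [LocallyConnectedSpace N]
    {g : N → ℂ} (hg : Continuous g) (h0 : ∀ x, g x ≠ 0) : Nonempty (Lg g) := by
  let V : N → Set N := fun y => {x | 0 < (g x / g y).re}
  let U : N → Set N := fun y => connectedComponentIn (V y) y
  let l : N → N → ℂ := fun y x => Complex.log (g y) + Complex.log (g x / g y)
  have oV : ∀ y, IsOpen (V y) := fun y => isOpen_lt continuous_const (by fun_prop)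
  have oU : ∀ y, IsOpen (U y) := fun y => (oV y).connectedComponentIn
  have sU : ∀ y, U y ⊆ V y := fun y => connectedComponentIn_subset _ _
  have e : ∀ y x, Complex.exp (l y x) = g x := fun y x => by
    rw [Complex.exp_add, Complex.exp_log (h0 y), Complex.exp_log (div_ne_zero (h0 x) (h0 y)),
      mul_div_cancel₀ _ (h0 y)]
  have key : ∀ y y', ∃ k : ℤ, ∀ x ∈ U y, x ∈ U y' → l y x - l y' x = k * (2 * π * Complex.I) := by
    intro y y'
    by_cases h : (U y ∩ U y').Nonempty
    swap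
    · exact ⟨0, fun x a b => (h ⟨x, a, b⟩).elim⟩
    obtain ⟨x', a', b'⟩ := h
    obtain ⟨n', hn'⟩ := Complex.exp_eq_exp_iff_exists_int.1 ((e y x').trans (e y' x').symm)
    refine ⟨n', fun x a b => ?_⟩
    obtain ⟨n, hn⟩ := Complex.exp_eq_exp_iff_exists_int.1 ((e y x).trans (e y' x).symm)
    have c : ∀ y, ∀ x ∈ U y, |(Complex.log (g x / g y)).im| < π / 2 := fun y x h =>
      Complex.log_im _ ▸ Complex.abs_arg_lt_pi_div_two_iff.2 (Or.inl (sU y h))
    have h1 := congrArg Complex.im hn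
    have h2 := congrArg Complex.im hn'
    have c1 := abs_lt.1 (c y x a)
    have c2 := abs_lt.1 (c y' x b)
    have c3 := abs_lt.1 (c y x' a')
    have c4 := abs_lt.1 (c y' x' b')
    simp only [l, Complex.add_im, Complex.mul_im, Complex.intCast_re, Complex.intCast_im,
      Complex.mul_re, Complex.I_re, Complex.I_im, Complex.ofReal_re, Complex.ofReal_im,
      Complex.re_ofNat, Complex.im_ofNat, mul_zero, zero_mul, add_zero, sub_zero, mul_one] at h1 h2
    have p := Real.pi_pos
    have h3 : ((n - n' : ℤ) : ℝ) < 1 := by push_cast; nlinarith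
    have h4 : ((n' - n : ℤ) : ℝ) < 1 := by push_cast; nlinarith
    obtain rfl : n = n' := by
      have := Int.cast_lt (R := ℝ).1 (h3.trans_eq Int.cast_one.symm)
      have := Int.cast_lt (R := ℝ).1 (h4.trans_eq Int.cast_one.symm)
      omega
    rw [hn, add_sub_cancel_left]
  choose k hk using key
  obtain ⟨S, hS⟩ := isCompact_univ.elim_finite_subcover U oU fun x _ =>
    mem_iUnion.2 ⟨x, mem_connectedComponentIn (by simp [V, h0 x])⟩
  exact ⟨⟨S, fun i => U i, fun i => l i, fun i j => k i j, fun i => oU i,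
    fun i => isPreconnected_connectedComponentIn,
    fun x => let ⟨i, hi, h⟩ := mem_iUnion₂.1 (hS (mem_univ x)); ⟨⟨i, hi⟩, h⟩,
    fun i => continuousOn_const.add (ContinuousOn.clog (by fun_prop) fun x h => Or.inl (sU i h)),
    fun i x _ => e i x, fun i j => hk i j⟩⟩

namespace Lg

variable {N : Type} [TopologicalSpace N] {g : N → ℂ} (L : Lg g) {i j m : L.ι} {x : N}

theorem k_add (hi : x ∈ L.U i) (hj : x ∈ L.U j) (hm : x ∈ L.U m) : L.k i j + L.k j m = L.k i m := by
  have := (sub_add_sub_cancel _ (L.l j x) _).trans (L.sub i m x hi hm)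
  rw [L.sub i j x hi hj, L.sub j m x hj hm, ← add_mul] at this
  exact_mod_cast mul_right_cancel₀ Complex.two_pi_I_ne_zero this

theorem k_self (hi : x ∈ L.U i) : L.k i i = 0 := by
  have := L.k_add hi hi hi
  omega

end Lg

variable {X : TopCat.{0}}

theorem wind_slit {g : X → ℂ} (h : Nz g) (e : ∀ x, g x ∈ Complex.slitPlane) : wind h = 0 :=
  wind_exp h (h.ct.clog e) fun x => Complex.exp_log (h.ne x)

theorem wind_wind [Nice X] {g g' : X → ℂ} (h : Nz g) (h' : Nz g')
    (e : ∀ x, g x ∈ Complex.slitPlane ∨ g' x ∈ Complex.slitPlane) : wind h * wind h' = 0 :=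
  mul_eq_zero_of_cover (sub_inducing (g ⁻¹' Complex.slitPlane))
    (sub_inducing (g' ⁻¹' Complex.slitPlane))
    ((range_sub _).symm ▸ Complex.isOpen_slitPlane.preimage h.ct)
    (by rw [range_sub, range_sub]; exact eq_univ_of_forall e)
    ((wind_pb _ h).symm.trans (wind_slit _ fun x => x.2))
    ((wind_pb _ h').symm.trans (wind_slit _ fun x => x.2))

theorem slit_of_ne {z : Circle} (h : z ≠ Circle.exp π) : (z : ℂ) ∈ Complex.slitPlane :=
  Complex.mem_slitPlane_iff_arg.2 ⟨fun e => h (by rw [← e, Circle.exp_arg]), z.coe_ne_zero⟩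

theorem wind_ne : wind nz_circle ≠ 0 := fun h => by
  have := congrFun (H_circle.1 (a₁ := ![0, 1]) (a₂ := 0) (by simp [h])) 1
  simp at this

theorem kn_inj (F : Type) [TopologicalSpace F] [Nice (TopCat.of F)] {a : HC F}
    (h : pc (ContinuousMap.fst : C(Circle × F, Circle)) (wind nz_circle) *
      pc ContinuousMap.snd a = 0) : a = 0 :=
  congrArg Prod.snd ((kun (wind_mem _) wind_ne F).1 (a₁ := (0, a)) (a₂ := 0) (by
    rw [kn_apply, h, map_zero, map_zero, add_zero]))

/-- the product of the winding classes of two independent circles is not a zero divisor -/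
theorem tor_inj {F : Type} [TopologicalSpace F] [Nice (TopCat.of F)] {p : X ⟶ TopCat.of F}
    {g g' : X → ℂ} (h : Nz g) (h' : Nz g') (σ : C(Circle × Circle × F, X))
    (e : ∀ z, p (σ z) = z.2.2) (e₁ : ∀ z, g (σ z) = z.1) (e₂ : ∀ z, g' (σ z) = z.2.1) {a : HC F}
    (h0 : wind h * (wind h' * pb p a) = 0) : a = 0 := by
  have h1 := congrArg (pb (X' := TopCat.of (Circle × Circle × F)) (TopCat.ofHom σ)) h0
  rw [map_zero, map_mul, map_mul, ← wind_pb, ← wind_pb, pb_comp] at h1
  refine kn_inj F (kn_inj (Circle × F) (Eq.trans ?_ h1))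
  rw [map_mul, pc_comp, pc_comp]
  refine congrArg₂ _ ((wind_pb _ _).symm.trans (wind_congr _ _ fun z => (e₁ z).symm))
    (congrArg₂ _ ((wind_pb _ _).symm.trans (wind_congr _ _ fun z => (e₂ z).symm)) ?_)
  exact congrArg (fun f => pb f a) (TopCat.ext fun z => (e z).symm)

variable {R Y P Z : Type*} [Ring R] [Algebra ℂ R] [Ring Y] [Algebra ℂ Y] [Ring P] [Algebra ℂ P]
  [Ring Z] [Algebra ℂ Z]

/-- the algebra of the torus trick -/
theorem alg_unit {p : R →ₐ[ℂ] P} {s : P →ₐ[ℂ] Y} {sg : Y →ₗ[ℂ] P} {i : P →ₐ[ℂ] Z} {ig : Z →ₗ[ℂ] P}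
    (hs : Pj s sg) (hi : Pj i ig) {a : R} {θ θ' : P} {m : Y} {l : Z} (e₁ : θ * p a = sg m)
    (e₂ : θ' * θ = ig l) (cm : Ce m) (cl : Ce l) (c₁ : Ce (sg m)) (c₂ : Ce (ig l))
    (inj : ∀ x, θ' * (θ * p x) = 0 → x = 0) {w : ℕ → Module.End ℂ R} {u : ℕ → Module.End ℂ Y}
    {v : ℕ → Module.End ℂ P} {z : ℕ → Module.End ℂ Z} (hw : IsGr w) (hu : IsGr u) (hv : IsGr v)
    (hz : IsGr z) (g₁ : Grd u v 0 sg) (g₂ : Grd z v 0 ig) (g₃ : MG u 0 m) (g₄ : MG z 0 l)
    (g₅ : MG u 0 (s θ')) (g₆ : Grd w u 0 (s.comp p).toLinearMap)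
    (g₇ : Grd w z 2 (i.comp p).toLinearMap) : MG w (-2) a := by
  have h1 : ∀ x, ig (i (p x) * l) = p x * (θ' * θ) := fun x => by
    rw [← (cl _).eq, hi, e₂, (c₂ _).eq]
  refine Grd.of_inj hw hv (Grd.comp g₂ (Grd.comp g₄ g₇ hz) hz)
    ((injective_iff_map_eq_zero _).2 fun x hx => inj x ?_)
    (grd_congr (Grd.comp g₁ (Grd.comp g₃ (Grd.comp g₅ g₆ hu) hu) hu) (by simp) fun x => ?_)
  · rw [← mul_assoc, e₂, (c₂ _).eq, ← e₂, ← h1]
    exact hx
  · change ig (i (p (x * a)) * l) = sg (s (p x) * s θ' * m)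
    rw [h1, ← map_mul s, ← (cm _).eq, hs, (c₁ _).eq, ← e₁, map_mul, mul_assoc, e₂, ← (c₂ _).eq,
      ← e₂, mul_assoc, mul_assoc]

end Vale.Agent.P275TU
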